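import Vale.Agent.P032.H139.Lrat

/-!
# P032: a faster checker for unsatisfiability proofs

As `H139/Lrat`, but all intermediate numbers are forced (`frc`), and the unit clauses are collected in a mask.
-/

namespace Vale.Agent.P032.H820.K

open Vale.Agent.P032.H139.Lrat (lit Sat Fal br br_true br_false Db opp opp_pow pow_of_land testBit_rem lit_xor sat_of_not_fal)

/-- `k x`, with the value of `x` computed first -/
def frc {α : Type} (x : ℕ) (d : α) (k : ℕ → α) : α := @Nat.rec (fun _ => α) d (fun n _ => k n) (Nat.add x 1)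

theorem frc_eq {α : Type} (x : ℕ) (d : α) (k : ℕ → α) : frc x d k = k x := rfl

/-- `true` if `r` is a power of two -/
def isP (r : ℕ) : Bool := Nat.beq (Nat.land r (Nat.sub r 1)) 0

/-- one propagation -/
noncomputable def stp (r M : ℕ) (go : ℕ → Bool) : Bool :=
  br (Nat.beq r 0) true (br (isP r) (go (Nat.lor M (opp r))) false)

theorem fal_opp {a : ℕ → Bool} {M r : ℕ} (hM : Fal a M) (hr : Sat a r) (h0 : Nat.beq r 0 = false)
    (h1 : isP r = true) : Fal a (Nat.lor M (opp r)) := by
  obtain ⟨l, hl1, hl2⟩ := hr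
  unfold isP at h1
  rw [Nat.beq_eq] at h1
  rw [Bool.eq_false_iff, ne_eq, Nat.beq_eq] at h0
  obtain ⟨l', rfl⟩ := pow_of_land h0 h1
  rw [Nat.testBit_two_pow] at hl1
  have hlog : l' = l := by simpa using hl1
  subst hlog
  rw [opp_pow]
  intro m hm
  have hm : (M ||| 2 ^ (l' ^^^ 1)).testBit m = true := hm
  rw [Nat.testBit_or, Bool.or_eq_true] at hm
  rcases hm with hm | hm
  · exact hM m hm
  · rw [Nat.testBit_two_pow] at hm
    have : l' ^^^ 1 = m := by simpa using hm
    rw [← this, lit_xor, hl2]; rfl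

theorem stp_sound {a : ℕ → Bool} {r M : ℕ} (hM : Fal a M) (hr : Sat a r) {go : ℕ → Bool}
    (hgo : ∀ M', Fal a M' → go M' = true → False) : stp r M go = true → False := by
  intro h
  unfold stp at h
  cases h2 : Nat.beq r 0
  · rw [h2, br_false] at h
    cases h3 : isP r
    · rw [h3, br_false] at h; cases h
    · rw [h3, br_true] at h
      exact hgo _ (fal_opp hM hr h2 h3) h
  · rw [Nat.beq_eq] at h2
    rw [h2] at hr
    obtain ⟨l, hl, -⟩ := hr
    simp at hl

/-- unit propagation -/
noncomputable def prp (B mB : ℕ) (t : Db) (n fuel : ℕ) : ℕ → ℕ → Bool :=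
  @Nat.rec (fun _ => ℕ → ℕ → Bool) (fun _ _ => false)
    (fun _ ih x M => br (Nat.ble n (Nat.land x mB)) false
      (stp (Nat.xor (t.get (Nat.land x mB)) (Nat.land (t.get (Nat.land x mB)) M)) M
        (ih (Nat.shiftRight x B)))) fuel

theorem sat_rem {a : ℕ → Bool} {c M : ℕ} (hM : Fal a M) (h : Sat a c) : Sat a (Nat.xor c (Nat.land c M)) := by
  obtain ⟨l, hl1, hl2⟩ := h
  refine ⟨l, ?_, hl2⟩
  rw [testBit_rem, hl1]
  have hlM : M.testBit l = false := by
    by_contra hcon
    rw [Bool.not_eq_false] at hcon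
    rw [hM l hcon] at hl2
    cases hl2
  rw [hlM]; rfl

theorem prp_sound {a : ℕ → Bool} {B mB : ℕ} {t : Db} {n : ℕ} (h : ∀ m < n, Sat a (t.get m)) :
    ∀ (fuel x M : ℕ), Fal a M → prp B mB t n fuel x M = true → False := by
  intro fuel
  induction fuel with
  | zero => intro x M _ h1; cases h1
  | succ fuel ih =>
    intro x M hM h1
    have h1 : br (Nat.ble n (Nat.land x mB)) false
      (stp (Nat.xor (t.get (Nat.land x mB)) (Nat.land (t.get (Nat.land x mB)) M)) M
        (fun M' => prp B mB t n fuel (Nat.shiftRight x B) M')) = true := h1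
    cases hg : Nat.ble n (Nat.land x mB)
    · rw [hg, br_false] at h1
      have hg : Nat.land x mB < n := by
        rw [Bool.eq_false_iff, ne_eq, Nat.ble_eq] at hg; omega
      exact stp_sound hM (sat_rem hM (h _ hg)) (fun M' hM' h' => ih _ M' hM' h') h1
    · rw [hg, br_true] at h1; cases h1

/-- add the opposite literal of a unit clause -/
noncomputable def addU (c U : ℕ) : ℕ := br (isP c) (br (Nat.beq c 0) U (Nat.lor U (opp c))) U

theorem addU_fal {a : ℕ → Bool} {c U : ℕ} (hU : Fal a U) (hc : Sat a c) : Fal a (addU c U) := by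
  unfold addU
  cases h1 : isP c
  · exact hU
  · rw [br_true]
    cases h2 : Nat.beq c 0
    · rw [br_false]
      exact fal_opp hU hc h2 h1
    · exact hU

theorem fal_lor {a : ℕ → Bool} {c U : ℕ} (hU : Fal a U) (hc : Fal a c) : Fal a (Nat.lor c U) := by
  intro m hm
  have hm : (c ||| U).testBit m = true := hm
  rw [Nat.testBit_or, Bool.or_eq_true] at hm
  rcases hm with hm | hm
  · exact hc m hm
  · exact hU m hm

/-- input clauses: the leaves with the numbers `n, n + 1, ..`; then `k` -/
noncomputable def inp (t : Db) (cs : List ℕ) (k : ℕ → ℕ → Bool) : ℕ → ℕ → Bool :=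
  @List.rec ℕ (fun _ => ℕ → ℕ → Bool) k
    (fun c _ ih n U => br (Nat.beq (t.get n) c) (ih (Nat.succ n) (addU c U)) false) cs

theorem inp_sound {a : ℕ → Bool} {t : Db} {k : ℕ → ℕ → Bool}
    (hk : ∀ n U, (∀ m < n, Sat a (t.get m)) → Fal a U → k n U = true → False) :
    ∀ (cs : List ℕ) (n U : ℕ), (∀ C ∈ cs, Sat a C) → (∀ m < n, Sat a (t.get m)) → Fal a U →
      inp t cs k n U = true → False := by
  intro cs
  induction cs with
  | nil => intro n U _ hn hU h; exact hk n U hn hU h
  | cons c cs ih =>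
    intro n U hcs hn hU h
    have h : br (Nat.beq (t.get n) c) (inp t cs k (n + 1) (addU c U)) false = true := h
    cases h1 : Nat.beq (t.get n) c
    · rw [h1, br_false] at h; cases h
    · rw [h1, br_true] at h
      rw [Nat.beq_eq] at h1
      have hc := hcs c List.mem_cons_self
      refine ih (n + 1) _ (fun C hC => hcs C (List.mem_cons_of_mem _ hC)) ?_ (addU_fal hU hc) h
      intro m hm
      rcases Nat.lt_succ_iff_lt_or_eq.1 hm with h2 | h2
      · exact hn m h2
      · rw [h2, h1]; exact hc

/-- the derived clauses; the last one is the empty clause -/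
noncomputable def rn (B mB fuel : ℕ) (t : Db) (hs : List ℕ) : ℕ → ℕ → Bool :=
  @List.rec ℕ (fun _ => ℕ → ℕ → Bool) (fun _ _ => false)
    (fun x _ ih n U => 
      br (prp B mB t n fuel x (Nat.lor (t.get n) U))
        (br (Nat.beq (t.get n) 0) true (frc (addU (t.get n) U) false (ih (Nat.succ n)))) false) hs

theorem rn_sound {a : ℕ → Bool} {B mB fuel : ℕ} {t : Db} : ∀ (hs : List ℕ) (n U : ℕ),
    (∀ m < n, Sat a (t.get m)) → Fal a U → rn B mB fuel t hs n U = true → False := by
  intro hs
  induction hs with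
  | nil => intro n U _ _ h; cases h
  | cons x hs ih =>
    intro n U hn hU h
    have h : br (prp B mB t n fuel x (Nat.lor (t.get n) U))
      (br (Nat.beq (t.get n) 0) true (rn B mB fuel t hs (n + 1) (addU (t.get n) U))) false = true := h
    cases h1 : prp B mB t n fuel x (Nat.lor (t.get n) U)
    · rw [h1, br_false] at h; cases h
    · rw [h1, br_true] at h
      have hC : Sat a (t.get n) := sat_of_not_fal fun hf => prp_sound hn fuel x _ (fal_lor hU hf) h1
      cases h2 : Nat.beq (t.get n) 0
      · rw [h2, br_false] at h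
        refine ih (n + 1) _ (fun m hm => ?_) (addU_fal hU hC) h
        rcases Nat.lt_succ_iff_lt_or_eq.1 hm with h3 | h3
        · exact hn m h3
        · rw [h3]; exact hC
      · rw [Nat.beq_eq] at h2
        obtain ⟨l, hl, -⟩ := hC
        rw [h2] at hl
        simp at hl

/-- **The checker.** -/
noncomputable def ck (B fuel : ℕ) (t : Db) (cs hs : List ℕ) : Bool :=
  inp t cs (rn B (Nat.sub (Nat.shiftLeft 1 B) 1) fuel t hs) 0 0

/-- **Soundness.** -/
theorem ck_sound {B fuel : ℕ} {t : Db} {cs hs : List ℕ} (h : ck B fuel t cs hs = true) (a : ℕ → Bool) :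
    ¬ ∀ C ∈ cs, Sat a C := by
  intro hcs
  refine inp_sound (a := a) (fun n U hn hU hk => rn_sound hs n U hn hU hk) cs 0 0 hcs
    (fun m hm => absurd hm (Nat.not_lt_zero m)) (fun m hm => ?_) h
  simp at hm

end Vale.Agent.P032.H820.K
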