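import Vale.Agent.P032.H820.K.Gen
import Vale.Agent.P032.H820.K.Lr

/-!
# P032: the checker for clauses of the model of germs

A certificate has a list of atoms (local numbers), a list of input clauses (code and local literals), derived clauses
and hints.  Everything is packed into natural numbers (blocks with a header of 17 bits, 32 blocks in one number).

* `gen` : the clause of a code, `gen_ho` : it holds,
* `chk`, `chk_sound` : the check of a certificate.
-/

namespace Vale.Agent.P032.H820.K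

open Vale.Agent.P032.H139.Lrat (lit Sat Fal Db build)

/-- the clause with the number `i` in a list -/
def nthC (e : List (List ℕ)) : ℕ → List ℕ :=
  @List.rec (List ℕ) (fun _ => ℕ → List ℕ) (fun _ => trv)
    (fun c _ ih i => bif Nat.beq i 0 then c else ih (Nat.sub i 1)) e

variable {K NP NW TB : ℕ}

theorem nthC_ho {M : Md K NP NW (nbf K TB)} {e : List (List ℕ)} (h : ∀ c ∈ e, Ho M c) (i : ℕ) : Ho M (nthC e i) := by
  induction e generalizing i with
  | nil => exact ho_trv M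
  | cons c e ih =>
    show Ho M (bif Nat.beq i 0 then c else nthC e (Nat.sub i 1))
    cases Nat.beq i 0
    · exact ih (fun c hc => h c (List.mem_cons_of_mem _ hc)) _
    · exact h c List.mem_cons_self

/-- kinds `0, .., 7` -/
def g0 (K NP NW TB k n : ℕ) : List ℕ :=
  bif Nat.beq k 4 then c4 K NP NW TB (fx n) (fa n) (fb n) (fc n) (fd n) else
  bif Nat.beq k 0 then c0 K NP NW TB (fx n) (fa n) (fb n) else
  bif Nat.beq k 7 then c7 K NP NW TB (fx n) (fa n) (fb n) (fc n) (fd n) else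
  bif Nat.beq k 1 then c1 K NP NW TB (fx n) (fa n) (fb n) (fc n) else
  bif Nat.beq k 2 then c2 K NP NW TB (fx n) (fa n) else
  bif Nat.beq k 6 then c6 K NP NW TB (fx n) (fa n) else
  bif Nat.beq k 3 then c3 K NP NW TB (fx n) (fa n) else c5 K NP NW TB (fx n)

/-- kinds `8, .., 15` -/
def g1 (K NP NW TB k n : ℕ) : List ℕ :=
  bif Nat.beq k 0 then c8 K NP NW TB (fx n) (fa n) (fb n) (fc n) (fd n) else
  bif Nat.beq k 5 then c13 K NP NW TB (fx n) (fa n) (fb n) (fc n) (fd n) else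
  bif Nat.beq k 3 then c11 K NP NW TB (fx n) (fa n) (fb n) (fc n) else
  bif Nat.beq k 2 then c10 K NP NW TB (fx n) (fa n) (fb n) (fc n) else
  bif Nat.beq k 1 then c9 K NP NW TB (fx n) (fa n) else
  bif Nat.beq k 4 then c12 K NP NW TB (fx n) (fa n) else
  bif Nat.beq k 6 then c14 K NP NW TB (fx n) (fa n) (fb n) else c15 K NP NW TB (fx n) (fa n) (fb n)

/-- kinds `16, .., 23` -/
def g2 (K NP NW TB k n : ℕ) : List ℕ :=
  bif Nat.beq k 0 then c16 K NP NW TB (fx n) (fa n) (fb n) (fc n) (fd n) (fe n) else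
  bif Nat.beq k 2 then c18 K NP NW TB (fx n) (fa n) (fb n) (fc n) (fd n) (fe n) else
  bif Nat.beq k 4 then c20 K NP NW TB (fx n) (fa n) (fb n) (fc n) else
  bif Nat.beq k 3 then c19 K NP NW TB (fx n) (fa n) (Nat.div (fb n) 4) (Nat.mod (Nat.div (fb n) 2) 2) (Nat.mod (fb n) 2) (fc n) else
  bif Nat.beq k 7 then c23 K NP NW TB (fx n) (fa n) (fb n) (Nat.div (fc n) 4) (Nat.mod (Nat.div (fc n) 2) 2) (Nat.mod (fc n) 2)
    (fd n) else
  bif Nat.beq k 1 then c17 K NP NW TB (fx n) (fa n) (fb n) (fc n) else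
  bif Nat.beq k 5 then c21 K NP NW TB (fx n) (fa n) (fb n) (fc n) (fd n) else c22 K NP NW TB (fx n) (fa n) (fb n) (fc n) (fd n)

/-- kinds `24, .., 31` -/
def g3 (K NP NW TB k n : ℕ) : List ℕ :=
  bif Nat.beq k 0 then c24 K NP NW TB (fx n) (fa n) (fb n) else
  bif Nat.beq k 1 then c25 K NP NW TB (fx n) (fa n) (fb n) (fc n) (fd n) else
  bif Nat.beq k 2 then c26 K NP NW TB (fx n) (fa n) (fb n) else
  bif Nat.beq k 3 then c27 K NP NW TB (fx n) (fa n) (fb n) (fc n) (fd n) else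
  bif Nat.beq k 4 then c28 K NP NW TB (fx n) (fa n) (fb n) (fc n) else
  bif Nat.beq k 5 then c29 K NP NW TB (fx n) (fa n) (fb n) (fc n) else
  bif Nat.beq k 6 then c30 K NP NW TB (fx n) (fa n) (Nat.div (fb n) 2) (Nat.mod (fb n) 2) (fc n) (fd n) else
    c31 K NP NW TB (fx n) (fa n) (Nat.div (fb n) 4) (Nat.mod (Nat.div (fb n) 2) 2) (Nat.mod (fb n) 2) (fc n)

/-- kinds `32, .., 39` -/
def g4 (K NP NW TB k n : ℕ) : List ℕ :=
  bif Nat.beq k 0 then
    c32 K NP NW TB (fx n) (fa n) (Nat.div (fb n) 4) (Nat.mod (Nat.div (fb n) 2) 2) (Nat.mod (fb n) 2) (fc n) else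
  bif Nat.beq k 1 then c33 K NP NW TB (fx n) (fa n) (fb n) else
  bif Nat.beq k 2 then c34 K NP NW TB (fx n) (fa n) (fb n) (fc n) else
  bif Nat.beq k 3 then c35 K NP NW TB (fx n) (fa n) (fb n) else
  bif Nat.beq k 4 then c36 K NP NW TB (fx n) (fa n) (fb n) (fc n) else
  bif Nat.beq k 5 then c37 K NP NW TB (fx n) (fa n) (fb n) else
  bif Nat.beq k 6 then c38 K NP NW TB (fx n) (fa n) (fb n) (fc n) else c39 K NP NW TB (fx n) (fa n) (fb n)

/-- kinds `40, .., 47` -/
def g5 (K NP NW TB k n : ℕ) : List ℕ :=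
  bif Nat.beq k 4 then c44 K NP NW TB (fx n) (fa n) (fb n) (fc n) else
  bif Nat.beq k 0 then c40 K NP NW TB (fx n) (fa n) (fb n) else
  bif Nat.beq k 1 then c41 K NP NW TB (fx n) (fa n) (fb n) else
  bif Nat.beq k 2 then c42 K NP NW TB (fx n) (fa n) (fb n) else
  bif Nat.beq k 3 then c43 K NP NW TB (fx n) (fa n) (fb n) (fc n) (fd n) else
  bif Nat.beq k 5 then c45 K NP NW TB (fx n) (fa n) (fb n) (fc n) (fd n) (fe n) else
  bif Nat.beq k 6 then c46 K NP NW TB (fx n) (fa n) (fb n) (Nat.mod (fd n) 8) (fc n) (Nat.div (fd n) 8) (fe n) else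
    c47 K NP NW TB (fx n) (fa n) (Nat.mod (fc n) 2) (Nat.div (fc n) 2) (fb n) (fd n) (fe n)

/-- kinds `48, .., 55` -/
def g6 (K NP NW TB k n : ℕ) : List ℕ :=
  bif Nat.beq k 2 then c50 K NP NW TB (fx n) (fa n) (fb n) (fc n) else
  bif Nat.beq k 5 then c53 K NP NW TB (fx n) (fa n) else
  bif Nat.beq k 0 then c48 K NP NW TB (fx n) (fa n) (fb n) (fc n) (fd n) else
  bif Nat.beq k 1 then c49 K NP NW TB (fx n) (fa n) (fb n) (fc n) (fd n) else
  bif Nat.beq k 3 then c51 K NP NW TB (fx n) (fa n) (fb n) else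
  bif Nat.beq k 4 then c52 K NP NW TB (fx n) (fa n) (fb n) (fc n) else trv

/-- the clause of a code; the last kind (`g = 7`) is an external clause -/
def gen (K NP NW TB : ℕ) (e : List (List ℕ)) (n : ℕ) : List ℕ :=
  bif Nat.beq (Nat.land (Nat.shiftRight n 3) 7) 0 then g0 K NP NW TB (Nat.land n 7) n else
  bif Nat.beq (Nat.land (Nat.shiftRight n 3) 7) 1 then g1 K NP NW TB (Nat.land n 7) n else
  bif Nat.beq (Nat.land (Nat.shiftRight n 3) 7) 2 then g2 K NP NW TB (Nat.land n 7) n else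
  bif Nat.beq (Nat.land (Nat.shiftRight n 3) 7) 3 then g3 K NP NW TB (Nat.land n 7) n else
  bif Nat.beq (Nat.land (Nat.shiftRight n 3) 7) 4 then g4 K NP NW TB (Nat.land n 7) n else
  bif Nat.beq (Nat.land (Nat.shiftRight n 3) 7) 5 then g5 K NP NW TB (Nat.land n 7) n else
  bif Nat.beq (Nat.land (Nat.shiftRight n 3) 7) 6 then g6 K NP NW TB (Nat.land n 7) n else
    nthC e (Nat.shiftRight n 6)

theorem ho_bif {M : Md K NP NW (nbf K TB)} {b : Bool} {c d : List ℕ} (h1 : Ho M c) (h2 : Ho M d) : Ho M (bif b then c else d) := by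
  cases b
  · exact h2
  · exact h1

section
variable (M : Md K NP NW (nbf K TB))

theorem g0_ho (k n : ℕ) : Ho M (g0 K NP NW TB k n) := by
  unfold g0
  exact ho_bif (h4 M _ _ _ _ _) (ho_bif (h0 M _ _ _) (ho_bif (h7 M _ _ _ _ _) (ho_bif (h1 M _ _ _ _)
    (ho_bif (h2 M _ _) (ho_bif (h6 M _ _) (ho_bif (h3 M _ _) (h5 M _)))))))

theorem g1_ho (k n : ℕ) : Ho M (g1 K NP NW TB k n) := by
  unfold g1
  exact ho_bif (h8 M _ _ _ _ _) (ho_bif (h13 M _ _ _ _ _) (ho_bif (h11 M _ _ _ _) (ho_bif (h10 M _ _ _ _)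
    (ho_bif (h9 M _ _) (ho_bif (h12 M _ _) (ho_bif (h14 M _ _ _) (h15 M _ _ _)))))))

theorem g2_ho (k n : ℕ) : Ho M (g2 K NP NW TB k n) := by
  unfold g2
  exact ho_bif (h16 M _ _ _ _ _ _) (ho_bif (h18 M _ _ _ _ _ _) (ho_bif (h20 M _ _ _ _) (ho_bif (h19 M _ _ _ _ _ _)
    (ho_bif (h23 M _ _ _ _ _ _ _) (ho_bif (h17 M _ _ _ _) (ho_bif (h21 M _ _ _ _ _) (h22 M _ _ _ _ _)))))))

theorem g3_ho (k n : ℕ) : Ho M (g3 K NP NW TB k n) := by
  unfold g3
  exact ho_bif (h24 M _ _ _) (ho_bif (h25 M _ _ _ _ _) (ho_bif (h26 M _ _ _) (ho_bif (h27 M _ _ _ _ _)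
    (ho_bif (h28 M _ _ _ _) (ho_bif (h29 M _ _ _ _) (ho_bif (h30 M _ _ _ _ _ _) (h31 M _ _ _ _ _ _)))))))

theorem g4_ho (k n : ℕ) : Ho M (g4 K NP NW TB k n) := by
  unfold g4
  exact ho_bif (h32 M _ _ _ _ _ _) (ho_bif (h33 M _ _ _) (ho_bif (h34 M _ _ _ _) (ho_bif (h35 M _ _ _)
    (ho_bif (h36 M _ _ _ _) (ho_bif (h37 M _ _ _) (ho_bif (h38 M _ _ _ _) (h39 M _ _ _)))))))

theorem g5_ho (k n : ℕ) : Ho M (g5 K NP NW TB k n) := by
  unfold g5
  exact ho_bif (h44 M _ _ _ _) (ho_bif (h40 M _ _ _) (ho_bif (h41 M _ _ _) (ho_bif (h42 M _ _ _)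
    (ho_bif (h43 M _ _ _ _ _) (ho_bif (h45 M _ _ _ _ _ _) (ho_bif (h46 M _ _ _ _ _ _ _) (h47 M _ _ _ _ _ _ _)))))))

theorem g6_ho (k n : ℕ) : Ho M (g6 K NP NW TB k n) := by
  unfold g6
  exact ho_bif (h50 M _ _ _ _) (ho_bif (h53 M _ _) (ho_bif (h48 M _ _ _ _ _) (ho_bif (h49 M _ _ _ _ _)
    (ho_bif (h51 M _ _ _) (ho_bif (h52 M _ _ _ _) (ho_trv M))))))

theorem gen_ho {e : List (List ℕ)} (h : ∀ c ∈ e, Ho M c) (n : ℕ) : Ho M (gen K NP NW TB e n) := by
  unfold gen
  exact ho_bif (g0_ho M _ _) (ho_bif (g1_ho M _ _) (ho_bif (g2_ho M _ _) (ho_bif (g3_ho M _ _)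
    (ho_bif (g4_ho M _ _) (ho_bif (g5_ho M _ _) (ho_bif (g6_ho M _ _) (nthC_ho h _)))))))

end

/-! ### local numbers -/

/-- the global literal -/
noncomputable def gl (A : Db) (l : ℕ) : ℕ := Nat.add (Nat.mul 2 (A.get (Nat.shiftRight l 1))) (Nat.land l 1)

open Classical in
/-- the local assignment -/
noncomputable def aL (M : Md K NP NW (nbf K TB)) (A : Db) (v : ℕ) : Bool := decide (av M (A.get v))

theorem lit_gl {M : Md K NP NW (nbf K TB)} {A : Db} {l : ℕ} : lit (aL M A) l = true ↔ lv M (gl A l) := by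
  classical
  have e1 : Nat.shiftRight l 1 = l / 2 := by
    show l >>> 1 = l / 2
    rw [Nat.shiftRight_one]
  have e2 : Nat.land l 1 = l % 2 := by
    show l &&& 1 = l % 2
    exact Nat.and_one_is_mod l
  have e3 : gl A l = 2 * A.get (l / 2) + l % 2 := by
    unfold gl; rw [e1, e2]; rfl
  unfold lit lv
  rw [e3]
  have e4 : (2 * A.get (l / 2) + l % 2) % 2 = l % 2 := by omega
  have e5 : (2 * A.get (l / 2) + l % 2) / 2 = A.get (l / 2) := by omega
  rw [e4, e5]
  rcases Nat.mod_two_eq_zero_or_one l with h | h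
  · rw [h]; simp [aL]
  · rw [h]; simp [aL]

/-- the mask of a global clause `g`, the local literals are the digits of `x` -/
noncomputable def inC (B mB : ℕ) (A : Db) (g : List ℕ) : ℕ → ℕ → ℕ :=
  @List.rec ℕ (fun _ => ℕ → ℕ → ℕ) (fun _ m => m)
    (fun h _ ih x m => frc (Nat.land x mB) 3 fun l => bif Nat.beq (gl A l) h then
      frc (Nat.shiftRight x B) 3 fun x' => frc (Nat.lor m (Nat.shiftLeft 1 l)) 3 fun m' => ih x' m' else 3) g

theorem sat_three (a : ℕ → Bool) : Sat a 3 := by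
  cases h : a 0
  · exact ⟨1, by decide, by show (!(a 0)) = true; rw [h]; rfl⟩
  · exact ⟨0, by decide, by show a 0 = true; exact h⟩

theorem sat_lor {a : ℕ → Bool} {m n : ℕ} (h : Sat a m) : Sat a (Nat.lor m n) := by
  obtain ⟨l, h1, h2⟩ := h
  refine ⟨l, ?_, h2⟩
  change (m ||| n).testBit l = true
  rw [Nat.testBit_or, h1]; rfl

theorem sat_bit {a : ℕ → Bool} {m l : ℕ} (h : lit a l = true) : Sat a (Nat.lor m (Nat.shiftLeft 1 l)) := by
  refine ⟨l, ?_, h⟩
  change (m ||| 1 <<< l).testBit l = true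
  rw [Nat.testBit_or, Nat.testBit_shiftLeft]
  simp

theorem inC_mono {a : ℕ → Bool} {B mB : ℕ} {A : Db} : ∀ (g : List ℕ) (x m : ℕ), Sat a m →
    Sat a (inC B mB A g x m) := by
  intro g
  induction g with
  | nil => intro x m h; exact h
  | cons c g ih =>
    intro x m h
    show Sat a (bif Nat.beq (gl A (Nat.land x mB)) c then
      inC B mB A g (Nat.shiftRight x B) (Nat.lor m (Nat.shiftLeft 1 (Nat.land x mB))) else 3)
    cases Nat.beq (gl A (Nat.land x mB)) c
    · exact sat_three a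
    · exact ih _ _ (sat_lor h)

theorem inC_sat {M : Md K NP NW (nbf K TB)} {B mB : ℕ} {A : Db} : ∀ (g : List ℕ) (x m : ℕ), Ho M g →
    Sat (aL M A) (inC B mB A g x m) := by
  intro g
  induction g with
  | nil => rintro x m ⟨l, hl, -⟩; exact absurd hl List.not_mem_nil
  | cons c g ih =>
    intro x m h
    show Sat _ (bif Nat.beq (gl A (Nat.land x mB)) c then
      inC B mB A g (Nat.shiftRight x B) (Nat.lor m (Nat.shiftLeft 1 (Nat.land x mB))) else 3)
    cases h1 : Nat.beq (gl A (Nat.land x mB)) c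
    · exact sat_three _
    · rw [cond_true]
      rw [Nat.beq_eq] at h1
      obtain ⟨l, hl, h2⟩ := h
      rcases List.mem_cons.1 hl with h3 | h3
      · rw [h3, ← h1] at h2
        exact inC_mono _ _ _ (sat_bit (lit_gl.2 h2))
      · exact ih _ _ ⟨l, h3, h2⟩

/-! ### packed data -/

/-- `n` blocks of a number, followed by `r` -/
noncomputable def unp (n : ℕ) : ℕ → List ℕ → List ℕ :=
  @Nat.rec (fun _ => ℕ → List ℕ → List ℕ) (fun _ r => r)
    (fun _ ih D r => frc (Nat.land D 131071) [] fun h =>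
      frc (Nat.land (Nat.shiftRight D 17) (Nat.sub (Nat.shiftLeft 1 h) 1)) [] fun b =>
      frc (Nat.shiftRight D (Nat.add 17 h)) [] fun D' => b :: ih D' r) n

/-- blocks of a list of numbers -/
noncomputable def unL (l : List ℕ) : List ℕ :=
  @List.rec ℕ (fun _ => List ℕ) [] (fun D _ ih => unp 32 D ih) l

/-- a mask from digits (literal plus one) -/
noncomputable def dmk (B mB fuel : ℕ) : ℕ → ℕ := @Nat.rec (fun _ => ℕ → ℕ) (fun _ => 0)
  (fun _ ih x => bif Nat.beq x 0 then 0 else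
    Nat.lor (Nat.shiftLeft 1 (Nat.sub (Nat.land x mB) 1)) (ih (Nat.shiftRight x B))) fuel

/-- map, followed by `r` -/
noncomputable def mpl (f : ℕ → ℕ) (l r : List ℕ) : List ℕ :=
  @List.rec ℕ (fun _ => List ℕ) r (fun x _ ih => frc (f x) [] fun v => v :: ih) l

theorem mpl_mem {f : ℕ → ℕ} {l : List ℕ} {c : ℕ} (h : c ∈ mpl f l []) : ∃ x, c = f x := by
  induction l with
  | nil => exact absurd h List.not_mem_nil
  | cons x l ih =>
    have h : c ∈ f x :: mpl f l [] := h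
    rcases List.mem_cons.1 h with h | h
    · exact ⟨x, h⟩
    · exact ih h

/-- the mask of an input block: 58 bits of code, then the local literals -/
noncomputable def inM (K NP NW TB : ℕ) (e : List (List ℕ)) (B mB : ℕ) (A : Db) (x : ℕ) : ℕ :=
  inC B mB A (gen K NP NW TB e (Nat.land x 288230376151711743)) (Nat.shiftRight x 58) 0

/-- the check with the tree of atoms `A` -/
noncomputable def chk1 (K NP NW TB : ℕ) (e : List (List ℕ)) (B mB HB d : ℕ) (C D H : List ℕ) (A : Db) : Bool :=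
  ck HB 100000 (build d (mpl (inM K NP NW TB e B mB A) (unL C) (mpl (dmk B mB 100000) (unL D) [])) 0 (fun t _ => t))
    (mpl (inM K NP NW TB e B mB A) (unL C) []) (unL H)

/-- **The check of a certificate.** -/
noncomputable def chk (K NP NW TB : ℕ) (e : List (List ℕ)) (B HB dA d : ℕ) (A C D H : List ℕ) : Bool :=
  chk1 K NP NW TB e B (Nat.sub (Nat.shiftLeft 1 B) 1) HB d C D H (build dA (unL A) 0 (fun t _ => t))

/-- **Soundness.** -/
theorem chk_sound {e : List (List ℕ)} {B HB dA d : ℕ} {A C D H : List ℕ}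
    (h : chk K NP NW TB e B HB dA d A C D H = true) {M : Md K NP NW (nbf K TB)} (he : ∀ c ∈ e, Ho M c) : False := by
  unfold chk chk1 at h
  refine ck_sound h (aL M (build dA (unL A) 0 fun t _ => t)) fun K hK => ?_
  obtain ⟨x, rfl⟩ := mpl_mem hK
  exact inC_sat _ _ _ (gen_ho M he _)

end Vale.Agent.P032.H820.K
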