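import Vale.Agent.P032.H357.Run
import Vale.Agent.P032.H820.K.Chk

/-!
# P032: from certificates to certified patterns

* `qk` : a query from a certificate of the checker `chk`,
* `ent` : a literal follows from a list of literals (member, or two different letters at one place),
* `pat_step`, `pat_start`, `pat_end` : the three forms of certified patterns (invariant; contradiction at the start;
  contradiction at the end),
* `Crt` : certified pattern, `crt_nil`, `crt_cons` : lists of certified patterns.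
-/

namespace Vale.Agent.P032.H820.K

open Vale.Agent.P032.H357.MK

variable {NP NW TB TC : ℕ}

/-- a query from a certificate -/
theorem qk {e : List (List ℕ)} {B HB dA d : ℕ} {A C D H : List ℕ}
    (h : chk 2 NP NW TB e B HB dA d A C D H = true) : Qy NP NW TB e := fun _ he => chk_sound h he

/-- `p` says that the letter at a place is `q`, `l` says that it is not `q' ≠ q` -/
def oh (p l : ℕ) : Bool :=
  Nat.beq (Nat.mod p 2) 0 && Nat.beq (Nat.mod l 2) 1 &&
  (Nat.beq (Nat.mod (Nat.div p 2) 16) 9 || Nat.beq (Nat.mod (Nat.div p 2) 16) 10) &&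
  Nat.beq (Nat.mod (Nat.div p 2) 134217728) (Nat.mod (Nat.div l 2) 134217728) &&
  !(Nat.beq (Nat.div p 2) (Nat.div l 2))

/-- the literal `l` follows from the literals `P` -/
def ent (l : ℕ) (P : List ℕ) : Bool :=
  @List.rec ℕ (fun _ => Bool) false (fun p _ ih => or (or (Nat.beq p l) (oh p l)) ih) P

theorem beqT {a b : ℕ} : Nat.beq a b = true ↔ a = b := by rw [Nat.beq_eq]

theorem oh_sound {M : Md 2 NP NW (nbf 2 TB)} {p l : ℕ} (h : oh p l = true) (hp : lv M p) : lv M l := by
  unfold oh at h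
  rw [Bool.and_eq_true, Bool.and_eq_true, Bool.and_eq_true, Bool.and_eq_true, beqT, beqT, beqT, Bool.or_eq_true,
    beqT, beqT] at h
  obtain ⟨⟨⟨⟨h1, h2⟩, h3⟩, h4⟩, h5⟩ := h
  have h6 : Nat.div p 2 ≠ Nat.div l 2 := by
    intro hc
    rw [beqT.2 hc] at h5
    exact absurd h5 (by decide)
  change p % 2 = 0 at h1
  change l % 2 = 1 at h2
  change p / 2 % 16 = 9 ∨ p / 2 % 16 = 10 at h3
  change p / 2 % 134217728 = l / 2 % 134217728 at h4
  change p / 2 ≠ l / 2 at h6
  unfold lv at hp ⊢
  rw [if_pos h1] at hp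
  rw [if_neg (by omega)]
  intro hl
  generalize p / 2 = n at *
  generalize l / 2 = m at *
  have e0 : a0 n = n % 16 := rfl
  have e0' : a0 m = m % 16 := rfl
  have e1 : a1 n = n / 16 % 4096 := rfl
  have e1' : a1 m = m / 16 % 4096 := rfl
  have e2 : a2 n = n / 65536 % 256 := rfl
  have e2' : a2 m = m / 65536 % 256 := rfl
  have e3 : a3 n = n / 16777216 % 8 := rfl
  have e3' : a3 m = m / 16777216 % 8 := rfl
  have e4 : a4 n = n / 134217728 := rfl
  have e4' : a4 m = m / 134217728 := rfl
  have f0 : a0 m = a0 n := by rw [e0, e0']; omega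
  have f1 : a1 m = a1 n := by rw [e1, e1']; omega
  have f2 : a2 m = a2 n := by rw [e2, e2']; omega
  have f3 : a3 m = a3 n := by rw [e3, e3']; omega
  have f4 : a4 m ≠ a4 n := by rw [e4, e4']; omega
  unfold av at hp hl
  rw [f0, f1, f2, f3] at hl
  rw [e0] at hp hl
  rcases h3 with h3 | h3
  · rw [h3] at hp hl
    simp only [OfNat.ofNat_ne_zero, if_false, if_true, Nat.reduceEqDiff] at hp hl
    exact f4 (hl.symm.trans hp)
  · rw [h3] at hp hl
    simp only [OfNat.ofNat_ne_zero, if_false, if_true, Nat.reduceEqDiff] at hp hl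
    exact f4 (hl.symm.trans hp)

theorem ent_sound {M : Md 2 NP NW (nbf 2 TB)} {l : ℕ} {P : List ℕ} (h : ent l P = true) (hP : ∀ p ∈ P, lv M p) :
    lv M l := by
  induction P with
  | nil => exact absurd h Bool.false_ne_true
  | cons p P ih =>
    have h1 : or (or (Nat.beq p l) (oh p l)) (ent l P) = true := h
    rw [Bool.or_eq_true, Bool.or_eq_true, beqT] at h1
    rcases h1 with (h1 | h1) | h1
    · exact h1 ▸ hP p List.mem_cons_self
    · exact oh_sound h1 (hP p List.mem_cons_self)
    · exact ih h1 fun q hq => hP q (List.mem_cons_of_mem _ hq)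

/-- some element of a list -/
def anL (f : ℕ → Bool) (c : List ℕ) : Bool := @List.rec ℕ (fun _ => Bool) false (fun x _ ih => or (f x) ih) c

theorem anL_spec {f : ℕ → Bool} {c : List ℕ} (h : anL f c = true) : ∃ x ∈ c, f x = true := by
  induction c with
  | nil => exact absurd h Bool.false_ne_true
  | cons y c ih =>
    have h1 : or (f y) (anL f c) = true := h
    rw [Bool.or_eq_true] at h1
    rcases h1 with h1 | h1
    · exact ⟨y, List.mem_cons_self, h1⟩
    · obtain ⟨x, h2, h3⟩ := ih h1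
      exact ⟨x, List.mem_cons_of_mem _ h2, h3⟩

/-- some element of a list of lists -/
def anLL (f : List ℕ → Bool) (c : List (List ℕ)) : Bool :=
  @List.rec (List ℕ) (fun _ => Bool) false (fun x _ ih => or (f x) ih) c

theorem anLL_spec {f : List ℕ → Bool} {c : List (List ℕ)} (h : anLL f c = true) : ∃ x ∈ c, f x = true := by
  induction c with
  | nil => exact absurd h Bool.false_ne_true
  | cons y c ih =>
    have h1 : or (f y) (anLL f c) = true := h
    rw [Bool.or_eq_true] at h1
    rcases h1 with h1 | h1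
    · exact ⟨y, List.mem_cons_self, h1⟩
    · obtain ⟨x, h2, h3⟩ := ih h1
      exact ⟨x, List.mem_cons_of_mem _ h2, h3⟩

/-- all checks of an invariant without queries -/
def okI (NW TC : ℕ) (P : List ℕ) (I : List (List ℕ)) : Bool :=
  alL (fun l => ok0 NW TC (Nat.div l 2)) P && alLL (fun C => alL (fun l => okA NW TC (Nat.div l 2)) C) I &&
  alLL (fun C => anL (fun l => ent (rd 0 l) P) C) I && anLL (fun C => alL (fun l => ent (ngl (rd 3 l)) P) C) I

/-- **an invariant**: holds at the start, fails at the end (by the literals of `P` alone), one query for every clause -/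
theorem pat_step {E : List (List ℕ)} {P : List ℕ} {I : List (List ℕ)} (h : okI NW TC P I = true)
    (q : ∀ C ∈ I, Qy NP NW TB (E ++ un P ++ I.map (rc 1) ++ ngs (rc 2 C))) : Pat NP NW TB TC E P I := by
  unfold okI at h
  rw [Bool.and_eq_true, Bool.and_eq_true, Bool.and_eq_true] at h
  obtain ⟨⟨⟨h1, h2⟩, h3⟩, h4⟩ := h
  refine ⟨alL_spec h1, fun C hC => alL_spec (alLL_spec h2 C hC), ?_, ?_, ?_⟩
  · intro M _ hP _ C hC
    obtain ⟨l, hl, h5⟩ := anL_spec (alLL_spec h3 C hC)
    exact ⟨rd 0 l, List.mem_map_of_mem hl, ent_sound h5 hP⟩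
  · intro M hE hl hi C hC
    refine ho_of_q (q C hC) fun c hc => ?_
    rcases List.mem_append.1 hc with hc | hc
    · rcases List.mem_append.1 hc with hc | hc
      · exact hE c hc
      · exact ho_un hl c hc
    · obtain ⟨C', hC', rfl⟩ := List.mem_map.1 hc
      exact hi C' hC'
  · intro M _ hP _ hi
    obtain ⟨C, hC, h5⟩ := anLL_spec h4
    obtain ⟨l', h6, h7⟩ := hi C hC
    obtain ⟨l, h8, rfl⟩ := List.mem_map.1 h6
    exact lv_ngl.1 (ent_sound (alL_spec h5 l h8) hP) h7

/-- **contradiction at the start** -/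
theorem pat_start {E : List (List ℕ)} {P vs : List ℕ} (h : (alL (fun l => ok0 NW TC (Nat.div l 2)) P &&
    alL (ok_s NW TC) vs) = true) (q : Qy NP NW TB (E ++ un P ++ vs.map stc)) : Pat NP NW TB TC E P [[]] := by
  rw [Bool.and_eq_true] at h
  obtain ⟨h1, h2⟩ := h
  have hf : ∀ (r : ℕ) (M : Md 2 NP NW (nbf 2 TB)), (∀ C ∈ ([[]] : List (List ℕ)), Ho M (rc r C)) → False :=
    fun r M hi => by
      obtain ⟨l, hl, -⟩ := hi [] (List.mem_singleton_self _)
      exact List.not_mem_nil hl
  refine ⟨alL_spec h1, fun C hC l hl => ?_, ?_, fun M _ _ hi => (hf 1 M hi).elim, fun M _ _ _ hi => hf 3 M hi⟩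
  · rw [List.mem_singleton.1 hC] at hl
    exact absurd hl List.not_mem_nil
  · intro M hE hl h0
    refine (q M fun c hc => ?_).elim
    rcases List.mem_append.1 hc with hc | hc
    · rcases List.mem_append.1 hc with hc | hc
      · exact hE c hc
      · exact ho_un hl c hc
    · obtain ⟨v, hv, rfl⟩ := List.mem_map.1 hc
      exact ho_s h0 (alL_spec h2 v hv)

/-- **contradiction at the end** (or at all times, if `ve = []`) -/
theorem pat_end {E : List (List ℕ)} {P ve : List ℕ} (h : (alL (fun l => ok0 NW TC (Nat.div l 2)) P &&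
    alL (ok_e NW TC) ve) = true) (q : Qy NP NW TB (E ++ un P ++ ve.map stc)) : Pat NP NW TB TC E P [] := by
  rw [Bool.and_eq_true] at h
  obtain ⟨h1, h2⟩ := h
  refine ⟨alL_spec h1, fun C hC => absurd hC List.not_mem_nil, fun M _ _ _ C hC => absurd hC List.not_mem_nil,
    fun M _ _ _ C hC => absurd hC List.not_mem_nil, ?_⟩
  intro M hE hl h0 _
  exact q M fun c hc => by
      rcases List.mem_append.1 hc with hc | hc
      · rcases List.mem_append.1 hc with hc | hc
        · exact hE c hc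
        · exact ho_un hl c hc
      · obtain ⟨v, hv, rfl⟩ := List.mem_map.1 hc
        exact ho_e h0 (alL_spec h2 v hv)

/-- certified pattern -/
def Crt (NP NW TB TC : ℕ) (E : List (List ℕ)) (P : List ℕ) : Prop := ∃ I, Pat NP NW TB TC E P I

theorem crt_nil {E : List (List ℕ)} : ∀ P ∈ ([] : List (List ℕ)), Crt NP NW TB TC E P :=
  fun _ h => absurd h List.not_mem_nil

theorem crt_cons {E : List (List ℕ)} {P : List ℕ} {I : List (List ℕ)} {L : List (List ℕ)}
    (h : Pat NP NW TB TC E P I) (hL : ∀ P ∈ L, Crt NP NW TB TC E P) : ∀ P' ∈ P :: L, Crt NP NW TB TC E P' := by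
  intro P' hP'
  rcases List.mem_cons.1 hP' with h1 | h1
  · rw [h1]; exact ⟨I, h⟩
  · exact hL P' h1

theorem crt_app {E : List (List ℕ)} {L L' : List (List ℕ)} (hL : ∀ P ∈ L, Crt NP NW TB TC E P)
    (hL' : ∀ P ∈ L', Crt NP NW TB TC E P) : ∀ P ∈ L ++ L', Crt NP NW TB TC E P := fun P hP =>
  (List.mem_append.1 hP).elim (hL P) (hL' P)

theorem q_nil {e : List (List ℕ)} : ∀ C ∈ ([] : List (List ℕ)), Qy NP NW TB (e ++ ngs (rc 2 C)) :=
  fun _ h => absurd h List.not_mem_nil

theorem q_cons {e : List (List ℕ)} {C : List ℕ} {I : List (List ℕ)} (h : Qy NP NW TB (e ++ ngs (rc 2 C)))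
    (hI : ∀ C ∈ I, Qy NP NW TB (e ++ ngs (rc 2 C))) : ∀ C' ∈ C :: I, Qy NP NW TB (e ++ ngs (rc 2 C')) := by
  intro C' hC'
  rcases List.mem_cons.1 hC' with h1 | h1
  · rw [h1]; exact h
  · exact hI C' h1

/-- the clauses for the palette `Tz` of `z` and `z ∈ XX` -/
def EZ (Tz : ℕ) : List (List ℕ) :=
  [[En 4 0 0 0 0 * 2 + (bif Nat.testBit Tz 0 then 0 else 1)], [En 4 0 0 0 1 * 2 + (bif Nat.testBit Tz 1 then 0 else 1)],
   [En 4 0 0 0 2 * 2 + (bif Nat.testBit Tz 2 then 0 else 1)], [En 4 0 0 0 3 * 2 + (bif Nat.testBit Tz 3 then 0 else 1)],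
   [En 4 0 0 0 4 * 2 + (bif Nat.testBit Tz 4 then 0 else 1)], [En 4 0 0 0 5 * 2 + (bif Nat.testBit Tz 5 then 0 else 1)],
   [ps (En 6 0 0 0 0)]]

end Vale.Agent.P032.H820.K
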