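import Vale.Agent.P032.H357.CellK

/-!
# P032: the hull rule with the palette of the partner

`CK.hullp` : at a point `x` of `XX`, for every colour `q` of `T x`, the germ of `q` at `x` is in a half plane bounded by
the ray `s` and `q` is a colour of `x + u(s)` or of `x - u(s)`, or it is in a half plane bounded inside the sector `s`.
-/

open Set Filter Topology Metric

noncomputable section

namespace Vale.Agent.P032.H820.K

open Vale.Agent.P032.Six Vale.Agent.P032.H892 Vale.Agent.P032.H913 Vale.Agent.P032.S5.H767 Vale.Agent.P032.H357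

variable {U : Fin 6 → Set ℂ} {T : ℂ → Set (Fin 6)}

/-- the directions of a colour at a point of `XX` are in a closed half plane, and the colour is a colour of one of the two
points at distance `1` in the direction of the normal -/
theorem exists_halfp (h : Irr U T) {x : ℂ} (hx : x ∈ XX U) (hct : Ctn U T x) {q : Fin 6} (hq : q ∈ T x) :
    ∃ φ : ℝ, (q ∈ Pal U (x + dir φ) ∨ q ∈ Pal U (x - dir φ)) ∧
      ∀ θ ∈ DS (Sq T q) x, 0 ≤ Real.cos ((θ - φ) * (Real.pi / 3)) := by
  have hpi := Real.pi_pos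
  obtain ⟨V, hxV, hV⟩ : ∃ V, dist x V = 1 ∧ q ∈ Pal U V := by
    first
      | exact h.partner_XX hx q
      | exact h.partner_XX hx hq
  have hn : ‖V - x‖ = 1 := by rw [← dist_eq_norm, dist_comm]; exact hxV
  obtain ⟨α, hα⟩ := exists_cis hn
  set φ := α * (3 / Real.pi) with hφ
  have e1 : V = x + dir φ := by
    unfold dir
    have : φ * (Real.pi / 3) = α := by rw [hφ]; field_simp
    rw [this, ← hα]; ring
  have e2 : x + dir (φ + 3) = x - dir φ := by rw [dir_add_three]; ring
  have e3 : x - dir (φ + 3) = x + dir φ := by rw [dir_add_three]; ring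
  rcases h.one_side hct hV with h1 | h1
  · refine ⟨φ, Or.inl (e1 ▸ hV), fun θ hθ => ?_⟩
    by_contra hcon
    push Not at hcon
    have h2 : 0 < Real.cos ((θ - (φ + 3)) * (Real.pi / 3)) := by
      have : (θ - (φ + 3)) * (Real.pi / 3) = (θ - φ) * (Real.pi / 3) - Real.pi := by ring
      rw [this, Real.cos_sub_pi]; linarith
    have h3 := in_of_ds hθ h2
    rw [e2] at h3
    have h4 : ∃ᶠ w in 𝓝 x, w ∈ Sq T q ∧ 1 < dist w V := by
      refine h3.mono fun w hw => ⟨hw.1, ?_⟩
      rw [e1]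
      have h5 := dist_triangle (x + dir φ) w (x - dir φ)
      have h6 : dist (x + dir φ) (x - dir φ) = 2 := by
        rw [dist_eq_norm]
        have : x + dir φ - (x - dir φ) = 2 * dir φ := by ring
        rw [this, norm_mul, norm_dir]; norm_num
      rw [h6, dist_comm (x + dir φ) w] at h5
      linarith [hw.2]
    obtain ⟨w, hw, hw2⟩ := (h4.and_eventually h1).exists
    have hT : T w = {q} := hw.1
    have := hw2 (by rw [hT]; rfl)
    linarith [hw.2]
  · refine ⟨φ + 3, Or.inr (e3 ▸ e1 ▸ hV), fun θ hθ => ?_⟩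
    by_contra hcon
    push Not at hcon
    have h2 : 0 < Real.cos ((θ - φ) * (Real.pi / 3)) := by
      have : (θ - (φ + 3)) * (Real.pi / 3) = (θ - φ) * (Real.pi / 3) - Real.pi := by ring
      rw [this, Real.cos_sub_pi] at hcon; linarith
    have h3 := in_of_ds hθ h2
    rw [← e1] at h3
    obtain ⟨w, hw, hw2⟩ := (h3.and_eventually h1).exists
    have hT : T w = {q} := hw.1
    have := hw2 (by rw [hT]; rfl)
    linarith [hw.2]

section
variable {K : ℕ} {a : ℕ → ℝ} (A : Tick K a) {x : ℂ}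
include A

/-- **[hull with the partner]** -/
theorem hullp (h : Irr U T) (hx : x ∈ XX U) (hct : Ctn U T x) {q : Fin 6} (hq : q ∈ T x) : ∃ s < 6 * K,
      (((∀ d, d + 1 ≤ 3 * K → ¬ Cl (Sq T q) x a 0 (s + d)) ∧
        ∀ d, 1 ≤ d → d + 1 ≤ 3 * K → ∀ k, k ≠ 0 → ¬ Cl (Sq T q) x a k (s + d)) ∧
        (q ∈ Pal U (x + dir (a s)) ∨ q ∈ Pal U (x + dir (a (s + 3 * K))))) ∨
      ((∀ d, 1 ≤ d → d + 1 ≤ 3 * K → ¬ Cl (Sq T q) x a 0 (s + d)) ∧
        ∀ d, 1 ≤ d → d ≤ 3 * K → ∀ k, k ≠ 0 → ¬ Cl (Sq T q) x a k (s + d)) := by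
  obtain ⟨φ, hV, hφ⟩ := exists_halfp h hx hct hq
  set n := ⌊(φ + 3 / 2 - ra a 0) / 6⌋ with hn
  have h1 := Int.floor_le ((φ + 3 / 2 - ra a 0) / 6)
  have h2 := Int.lt_floor_add_one ((φ + 3 / 2 - ra a 0) / 6)
  rw [← hn] at h1 h2
  set ψ := φ + 3 / 2 - 6 * n with hψ
  have hψm : ψ ∈ Ico (ra a 0) (ra a 0 + 6) := ⟨by linarith, by linarith⟩
  have key : ∀ θ ∈ Ioo ψ (ψ + 3), θ ∉ DS (Sq T q) x := by
    intro θ hθ hd
    have h3 := (ds_six_int (S := Sq T q) (x := x) (θ := θ) n).2 hd
    have h4 := hφ _ h3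
    have h5 : Real.cos ((θ + 6 * n - φ) * (Real.pi / 3)) < 0 := by
      refine cos_neg_of ?_ ?_
      · have := hθ.1; linarith
      · have := hθ.2; linarith
    linarith
  obtain ⟨s, -, hs, h3⟩ := CK.exists_tick A hψm
  refine ⟨s, by omega, ?_⟩
  rcases h3 with h3 | h3
  · left
    refine ⟨⟨fun d hd hc => ?_, fun d hd1 hd k hk0 hc => ?_⟩, ?_⟩
    · obtain ⟨θ, hθ, hd2⟩ := cl_zero.1 hc
      refine key θ ⟨?_, ?_⟩ hd2
      · have := CK.ra_le A (show s ≤ s + d by omega); have := hθ.1; linarith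
      · have := CK.ra_le A (show s + d + 1 ≤ s + 3 * K by omega); rw [CK.ra_half A] at this; have := hθ.2; linarith
    · refine key _ ⟨?_, ?_⟩ (cl_ray hk0 hc)
      · have := CK.ra_lt A (show s < s + d by omega); linarith
      · have := CK.ra_lt A (show s + d < s + 3 * K by omega); rw [CK.ra_half A] at this; linarith
    · have e : dir φ = dir (a s) := by
        have e1 : φ = a s + 6 * (n : ℝ) := by unfold ra at h3; linarith
        rw [e1]
        unfold dir cis
        have e2 : (a s + 6 * (n : ℝ)) * (Real.pi / 3) = a s * (Real.pi / 3) + n * (2 * Real.pi) := by ring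
        rw [e2]
        push_cast
        rw [add_mul, Complex.exp_add, show (n : ℂ) * (2 * (Real.pi : ℂ)) * Complex.I = n * (2 * Real.pi * Complex.I) by ring,
          Complex.exp_int_mul_two_pi_mul_I, mul_one]
      rw [CK.dir_half A, ← sub_eq_add_neg, ← e]
      exact hV
  · right
    refine ⟨fun d hd1 hd hc => ?_, fun d hd1 hd k hk0 hc => ?_⟩
    · obtain ⟨θ, hθ, hd2⟩ := cl_zero.1 hc
      refine key θ ⟨?_, ?_⟩ hd2
      · have := CK.ra_le A (show s + 1 ≤ s + d by omega); have := hθ.1; linarith [h3.2]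
      · have := CK.ra_le A (show s + d + 1 ≤ s + 3 * K by omega); rw [CK.ra_half A] at this
        have := hθ.2; linarith [h3.1]
    · refine key _ ⟨?_, ?_⟩ (cl_ray hk0 hc)
      · have := CK.ra_le A (show s + 1 ≤ s + d by omega); linarith [h3.2]
      · have := CK.ra_le A (show s + d ≤ s + 3 * K by omega); rw [CK.ra_half A] at this; linarith [h3.1]

end

end Vale.Agent.P032.H820.K
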